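import Mathlib.Analysis.InnerProductSpace.PiL2

set_option autoImplicit false

/-!
P052.RegularSimplices, row REAL (helper74).
-/

namespace Vale.Agent.P052.R3.H74

theorem sq_pair {m h k H : ℝ} (hm : h ≤ m) (hkh : k ≤ h) (hk : 0 ≤ k) (hhk : h + k ≤ H)
    (hc : m ≤ H) : h ^ 2 + k ^ 2 ≤ m ^ 2 + (H - m) ^ 2 := by
  rcases le_total k (H - m) with h4 | h4
  · have a1 : h ^ 2 ≤ m ^ 2 := pow_le_pow_left₀ (by linarith) hm 2
    have a2 : k ^ 2 ≤ (H - m) ^ 2 := pow_le_pow_left₀ hk h4 2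
    linarith
  · have h5 : k - (H - m) ≤ m - h := by linarith
    have h6 : (k - (H - m)) * (k + (H - m)) ≤ (m - h) * (m + h) :=
      mul_le_mul h5 (by linarith) (by linarith) (by linarith)
    have e1 : (k - (H - m)) * (k + (H - m)) = k ^ 2 - (H - m) ^ 2 := by ring
    have e2 : (m - h) * (m + h) = m ^ 2 - h ^ 2 := by ring
    rw [e1, e2] at h6
    linarith

theorem tangent {p h : ℝ} (hh : 0 ≤ h) (hp : 0 < p) (c1 : h * (1 + h) ≤ p * (3 - p)) :
    h ≤ (p + 2) / 3 := by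
  by_contra hc
  push Not at hc
  have h1 : (p + 2) / 3 * (1 + (p + 2) / 3) < h * (1 + h) :=
    mul_lt_mul hc (by linarith) (by positivity) hh
  have h2 : (p + 2) / 3 * (1 + (p + 2) / 3) = p * (3 - p) + 10 / 9 * (p - 1) ^ 2 := by ring
  have h3 : 0 ≤ (p - 1) ^ 2 := sq_nonneg _
  linarith

theorem two_le {p q : ℝ} (hp : 0 < p) (hq : 0 < q) (hpq : 1 ≤ p * q) : 2 ≤ p + q := by
  by_contra hc
  push Not at hc
  have h1 : (p + q) ^ 2 < 2 ^ 2 := pow_lt_pow_left₀ hc (by linarith) (by norm_num)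
  have h2 : (p + q) ^ 2 = (p - q) ^ 2 + 4 * (p * q) := by ring
  have h3 : 0 ≤ (p - q) ^ 2 := sq_nonneg _
  linarith

theorem poly_part {p r m H0 : ℝ} (hp : 0 < p) (hr : r = 1 / p) (hmd : m = (p + 2) / 3)
    (hH0 : H0 = (3 - p) * (3 - r) - 2) (e4 : m ≤ H0) :
    m ^ 2 + (H0 - m) ^ 2 + (3 - p - r) ^ 2 ≤ 3 := by
  have e0 : 3 * p * H0 = 24 * p - 9 * p ^ 2 - 9 := by
    rw [hH0, hr]; field_simp; ring
  have e5 : 10 * p ^ 2 - 22 * p + 9 ≤ 0 := by
    have h1 : 3 * p * m ≤ 3 * p * H0 := mul_le_mul_of_nonneg_left e4 (by positivity)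
    have h2 : 3 * p * m = p ^ 2 + 2 * p := by rw [hmd]; ring
    linarith
  have hp1 : p ≤ 17 / 10 := by
    by_contra hcon
    push Not at hcon
    have : 0 < (p - 17 / 10) * p := mul_pos (by linarith) hp
    have h3 : 0 < (p - 17 / 10) * (p - 1 / 2) := mul_pos (by linarith) (by linarith)
    linarith [sq_nonneg p, show 10 * p ^ 2 - 22 * p + 9 =
      10 * ((p - 17 / 10) * (p - 1 / 2)) + 1 / 2 from by ring]
  have hp2 : 1 / 2 ≤ p := by
    by_contra hcon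
    push Not at hcon
    have h3 : 0 < (17 / 10 - p) * (1 / 2 - p) := mul_pos (by linarith) (by linarith)
    linarith [show 10 * p ^ 2 - 22 * p + 9 =
      10 * ((17 / 10 - p) * (1 / 2 - p)) + 1 / 2 from by ring]
  have e6 : 11 * p ^ 2 - 27 * p + 9 ≤ 0 := by
    have h3 : 0 ≤ (17 / 10 - p) * (p - 1 / 2) := mul_nonneg (by linarith) (by linarith)
    linarith [show 11 * p ^ 2 - 27 * p + 9 =
      -11 * ((17 / 10 - p) * (p - 1 / 2)) - 2.8 * p - 0.35 from by ring]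
  have e7 : 9 * p ^ 2 * (m ^ 2 + (H0 - m) ^ 2 + (3 - p - r) ^ 2 - 3) =
      10 * ((p - 1) ^ 2 * (11 * p ^ 2 - 27 * p + 9)) := by
    rw [hmd, hH0, hr]
    field_simp
    ring
  have e8 : (p - 1) ^ 2 * (11 * p ^ 2 - 27 * p + 9) ≤ 0 :=
    mul_nonpos_of_nonneg_of_nonpos (sq_nonneg _) e6
  by_contra hcon
  push Not at hcon
  have h9 : 0 < 9 * p ^ 2 * (m ^ 2 + (H0 - m) ^ 2 + (3 - p - r) ^ 2 - 3) :=
    mul_pos (by positivity) (by linarith)
  linarith

theorem core {p q h k : ℝ} (hp : 0 < p) (hq : 0 < q) (hh : 0 ≤ h) (hk : 0 ≤ k)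
    (hpq : 1 ≤ p * q) (hs : p + q < 3) (h2 : 2 + h + k ≤ (3 - p) * (3 - q))
    (c1 : h * (1 + h) ≤ p * (3 - p)) (hkh : k ≤ h) :
    h ^ 2 + k ^ 2 + (3 - p - q) ^ 2 ≤ 3 := by
  have hm : h ≤ (p + 2) / 3 := tangent hh hp c1
  have hs2 : 2 ≤ p + q := two_le hp hq hpq
  obtain ⟨m, hmd⟩ : ∃ m : ℝ, m = (p + 2) / 3 := ⟨_, rfl⟩
  obtain ⟨H, hH⟩ : ∃ H : ℝ, H = (3 - p) * (3 - q) - 2 := ⟨_, rfl⟩
  rw [← hmd] at hm
  have hhk : h + k ≤ H := by rw [hH]; linarith
  have hp3 : p < 3 := by linarith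
  obtain ⟨r, hr⟩ : ∃ r : ℝ, r = 1 / p := ⟨_, rfl⟩
  have hr0 : 0 < r := by rw [hr]; positivity
  have hrq : r ≤ q := by
    rw [hr, div_le_iff₀ hp]
    linarith
  obtain ⟨H0, hH0⟩ : ∃ H0 : ℝ, H0 = (3 - p) * (3 - r) - 2 := ⟨_, rfl⟩
  have hHH : H ≤ H0 := by
    rw [hH, hH0]
    have : (3 - p) * (3 - q) ≤ (3 - p) * (3 - r) :=
      mul_le_mul_of_nonneg_left (by linarith) (by linarith)
    linarith
  by_cases hc : m ≤ H
  · have e1 := sq_pair hm hkh hk hhk hc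
    have e2 : (H - m) ^ 2 ≤ (H0 - m) ^ 2 := pow_le_pow_left₀ (by linarith) (by linarith) 2
    have e3 : (3 - p - q) ^ 2 ≤ (3 - p - r) ^ 2 := pow_le_pow_left₀ (by linarith) (by linarith) 2
    have e4 := poly_part hp hr hmd hH0 (hc.trans hHH)
    linarith
  · push Not at hc
    have f1 : h ^ 2 + k ^ 2 ≤ (h + k) ^ 2 := by
      have := mul_nonneg hh hk
      have e : (h + k) ^ 2 = h ^ 2 + k ^ 2 + 2 * (h * k) := by ring
      linarith
    have f2 : (h + k) ^ 2 ≤ m ^ 2 := pow_le_pow_left₀ (by linarith) (by linarith) 2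
    have f3 : (3 - p - q) ^ 2 ≤ 1 ^ 2 := pow_le_pow_left₀ (by linarith) (by linarith) 2
    have f4 : 2 ≤ (3 - p) * (3 - r) := by linarith
    have f5 : 3 * p ^ 2 - 8 * p + 3 ≤ 0 := by
      have g1 : p * 2 ≤ p * ((3 - p) * (3 - r)) := mul_le_mul_of_nonneg_left f4 hp.le
      have g2 : p * ((3 - p) * (3 - r)) = 10 * p - 3 * p ^ 2 - 3 := by
        rw [hr]; field_simp; ring
      linarith
    have f6 : p ≤ 56 / 25 := by
      by_contra hcon
      push Not at hcon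
      have : 0 < (p - 56 / 25) * (p - 2 / 5) := mul_pos (by linarith) (by linarith)
      linarith [show 3 * p ^ 2 - 8 * p + 3 =
        3 * ((p - 56 / 25) * (p - 2 / 5)) - 0.08 * p + 0.312 from by ring]
    have f7 : m ^ 2 ≤ (106 / 75) ^ 2 := pow_le_pow_left₀ (by linarith) (by linarith) 2
    have f8 : ((106 : ℝ) / 75) ^ 2 ≤ 2 := by norm_num
    linarith

theorem real_part {ν p q h k : ℝ} (hν : 0 < ν) (hν3 : ν < 3) (hp : 0 < p) (hq : 0 < q)
    (hh : 0 ≤ h) (hk : 0 ≤ k) (hpq : 1 ≤ p * q) (h2 : 2 + h + k ≤ (ν - p) * (ν - q))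
    (c1 : h * (1 + h) ≤ p * (ν - p)) (c2 : k * (1 + k) ≤ q * (ν - q))
    (h3 : 3 ≤ h ^ 2 + k ^ 2 + (ν - p - q) ^ 2) : False := by
  have hpν : p ≤ ν := by
    by_contra hc
    push Not at hc
    have a1 : 0 ≤ h * (1 + h) := by positivity
    have a2 : p * (ν - p) < 0 := mul_neg_of_pos_of_neg hp (by linarith)
    linarith
  have hqν : q ≤ ν := by
    by_contra hc
    push Not at hc
    have a1 : 0 ≤ k * (1 + k) := by positivity
    have a2 : q * (ν - q) < 0 := mul_neg_of_pos_of_neg hq (by linarith)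
    linarith
  by_cases hs : p + q < ν
  · have hs3 : p + q < 3 := by linarith
    have g2 : 2 + h + k ≤ (3 - p) * (3 - q) :=
      h2.trans (mul_le_mul (by linarith) (by linarith) (by linarith) (by linarith))
    have g1 : h * (1 + h) ≤ p * (3 - p) :=
      c1.trans (mul_le_mul_of_nonneg_left (by linarith) hp.le)
    have g1' : k * (1 + k) ≤ q * (3 - q) :=
      c2.trans (mul_le_mul_of_nonneg_left (by linarith) hq.le)
    have g3 : (ν - p - q) ^ 2 < (3 - p - q) ^ 2 := by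
      apply pow_lt_pow_left₀ (by linarith) (by linarith) (by norm_num)
    rcases le_total k h with hkh | hkh
    · have := core hp hq hh hk hpq hs3 g2 g1 hkh
      linarith
    · have := core hq hp hk hh (by linarith) (by linarith) (by linarith) g1' hkh
      have e : (3 - q - p) ^ 2 = (3 - p - q) ^ 2 := by ring
      rw [e] at this
      linarith
  · push Not at hs
    have k0 : 4 * ((ν - p) * (ν - q)) ≤ (2 * ν - p - q) ^ 2 := by
      have : (2 * ν - p - q) ^ 2 = 4 * ((ν - p) * (ν - q)) + (p - q) ^ 2 := by ring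
      have := sq_nonneg (p - q)
      linarith
    have k1 : (2 * ν - p - q) ^ 2 ≤ 3 ^ 2 := pow_le_pow_left₀ (by linarith) (by linarith) 2
    have k2 : h + k ≤ 1 / 4 := by linarith
    have k3 : h ^ 2 + k ^ 2 ≤ (1 / 4) ^ 2 := by
      have a1 := mul_nonneg hh hk
      have a2 : (h + k) ^ 2 ≤ (1 / 4) ^ 2 := pow_le_pow_left₀ (by linarith) k2 2
      have e : (h + k) ^ 2 = h ^ 2 + k ^ 2 + 2 * (h * k) := by ring
      linarith
    have k4 : p + q - ν ≤ 1 := by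
      by_contra hcon
      push Not at hcon
      have : (2 * ν - p - q) ^ 2 ≤ 2 ^ 2 := pow_le_pow_left₀ (by linarith) (by linarith) 2
      linarith
    have k5 : (p + q - ν) ^ 2 ≤ 1 ^ 2 := pow_le_pow_left₀ (by linarith) k4 2
    have e : (p + q - ν) ^ 2 = (ν - p - q) ^ 2 := by ring
    rw [e] at k5
    linarith

end Vale.Agent.P052.R3.H74
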